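import Mathlib

/-!
Minimal non solvable quotients; subgroups of finite index of the additive group of a field.
-/

open scoped commutatorElement

namespace Vale.Agent.P011UL

/-- A class of finite groups which is closed under quotients consists of solvable groups if no
member has a nontrivial minimal normal subgroup with trivial centralizer. -/
theorem solvable_of_min {Γ : Type} [Group Γ] (Z : Set Γ)
    (h : ∀ (Q : Type) [Group Q] [Finite Q] (ψ : Γ →* Q), Function.Surjective ψ →
      (∀ u ∈ Z, ψ u = 1) → ∀ P : Subgroup Q, P.Normal →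
      (∀ N : Subgroup Q, N.Normal → N ≤ P → N = ⊥ ∨ N = P) →
      Subgroup.centralizer (P : Set Q) = ⊥ → P = ⊥) (m : ℕ) :
    ∀ (Q : Type) [Group Q] [Finite Q] (ψ : Γ →* Q), Nat.card Q = m → Function.Surjective ψ →
      (∀ u ∈ Z, ψ u = 1) → Group.IsSolvable Q := by
  induction m using Nat.strong_induction_on with
  | _ m ih =>
  intro Q _ _ ψ hm hψ hZ
  rcases subsingleton_or_nontrivial Q with hQ | hQ
  · infer_instance
  have hq : ∀ N : Subgroup Q, ∀ _ : N.Normal, N ≠ ⊥ → Group.IsSolvable (Q ⧸ N) := by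
    intro N _ hN
    refine ih _ ?_ (Q ⧸ N) ((QuotientGroup.mk' N).comp ψ) rfl
      ((QuotientGroup.mk'_surjective N).comp hψ) fun u hu => by
        rw [MonoidHom.comp_apply, hZ u hu, map_one]
    rw [← hm, Subgroup.card_eq_card_quotient_mul_card_subgroup N]
    exact lt_mul_of_one_lt_right Nat.card_pos ((Subgroup.one_lt_card_iff_ne_bot N).2 hN)
  obtain ⟨P, ⟨hP, hP0⟩, hmin⟩ := (wellFounded_lt (α := Subgroup Q)).has_min
    {P | P.Normal ∧ P ≠ ⊥} ⟨⊤, inferInstance, top_ne_bot⟩
  have hmin' : ∀ N : Subgroup Q, N.Normal → N ≤ P → N = ⊥ ∨ N = P := fun N hN hle => by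
    by_contra hc
    rw [not_or] at hc
    exact hmin N ⟨hN, hc.1⟩ (lt_of_le_of_ne hle hc.2)
  have hC : Subgroup.centralizer (P : Set Q) ≠ ⊥ := fun hC => hP0 (h Q ψ hψ hZ P hP hmin' hC)
  have h1 := hq P hP hP0
  have h2 := hq _ inferInstance hC
  rcases hmin' (Subgroup.centralizer (P : Set Q) ⊓ P) inferInstance inf_le_right with h3 | h3
  · refine Group.isSolvable_of_isSolvable_injective
      (f := (QuotientGroup.mk' (Subgroup.centralizer (P : Set Q))).prod (QuotientGroup.mk' P)) ?_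
    rw [← MonoidHom.ker_eq_bot_iff, MonoidHom.ker_prod, QuotientGroup.ker_mk',
      QuotientGroup.ker_mk', h3]
  · have h4 : Group.IsSolvable P := Group.isSolvable_of_comm fun a b => Subtype.ext
      ((inf_eq_right.1 h3 b.2) a a.2)
    exact (Group.isSolvable_iff_subgroup_quotient P).2 ⟨h4, h1⟩

theorem perfect_of_min {Q : Type*} [Group Q] {P : Subgroup Q} (hP : P.Normal)
    (hmin : ∀ N : Subgroup Q, N.Normal → N ≤ P → N = ⊥ ∨ N = P)
    (hC : Subgroup.centralizer (P : Set Q) = ⊥) : ⁅P, P⁆ = P := by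
  rcases hmin ⁅P, P⁆ inferInstance (Subgroup.commutator_le_left P P) with h | h
  · rw [h, eq_comm, eq_bot_iff, ← hC]
    exact Subgroup.commutator_eq_bot_iff_le_centralizer.1 h
  · exact h

/-- A colouring whose classes lie in finitely many cosets. -/
theorem finite_quot {A Q : Type*} [AddCommGroup A] [Finite Q] (S : AddSubgroup A) {B : Set A}
    (hB : B.Finite) (g : A → Q) (h : ∀ x y, g x = g y → x - y ∈ B ∨ x - y ∈ S) :
    Finite (A ⧸ S) := by
  by_contra hc
  rw [not_finite_iff_infinite] at hc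
  obtain ⟨q, hq⟩ := Finite.exists_infinite_fiber fun x : A ⧸ S => g x.out
  have h1 := Set.infinite_coe_iff.1 hq
  obtain ⟨x₀, hx₀⟩ := h1.nonempty
  refine h1 (((hB.image fun b : A => x₀ + (b : A ⧸ S)).insert x₀).subset fun x hx => ?_)
  have h2 : g x.out = g x₀.out := (show g x.out = q from hx).trans (show g x₀.out = q from hx₀).symm
  have h3 : ((x.out - x₀.out : A) : A ⧸ S) = x - x₀ := by
    rw [QuotientAddGroup.mk_sub, QuotientAddGroup.out_eq', QuotientAddGroup.out_eq']
  rcases h _ _ h2 with h4 | h4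
  · exact Or.inr ⟨_, h4, by simp only [h3]; abel⟩
  · exact Or.inl (sub_eq_zero.1 (h3 ▸ (QuotientAddGroup.eq_zero_iff _).2 h4))

/-- An element of one subgroup of finite index whose inverse lies in another one. -/
theorem exists_inv_mem {k : Type*} [Field k] [Infinite k] (S T : AddSubgroup k) [Finite (k ⧸ S)]
    [Finite (k ⧸ T)] : ∃ y : k, y ≠ 0 ∧ y ∈ S ∧ y⁻¹ ∈ T := by
  let e : Option (k ⧸ T) ↪ k := ((Finite.equivFin _).toEmbedding.trans Fin.valEmbedding).trans
    (Infinite.natEmbedding k)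
  obtain ⟨a, a', hne, ha⟩ := Finite.exists_ne_map_eq_of_infinite
    fun (a : k) (p : Option (k ⧸ T) × Option (k ⧸ T)) => ((a / (e p.1 - e p.2) : k) : k ⧸ S)
  obtain ⟨c, c', hc, h⟩ : ∃ c c' : Option (k ⧸ T), c ≠ c' ∧
      ((e c / (a - a') : k) : k ⧸ T) = (e c' / (a - a') : k) := by
    have := Fintype.ofFinite (k ⧸ T)
    exact Fintype.exists_ne_map_eq_of_card_lt _ (by simp)
  refine ⟨(a - a') / (e c - e c'), div_ne_zero (sub_ne_zero.2 hne)
    (sub_ne_zero.2 (e.injective.ne hc)), ?_, ?_⟩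
  · rw [sub_div, ← QuotientAddGroup.eq_iff_sub_mem]
    exact congrFun ha (c, c')
  · rw [inv_div, sub_div, ← QuotientAddGroup.eq_iff_sub_mem]
    exact h

end Vale.Agent.P011UL
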