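import Vale.Agent.P011UL.Line
import Vale.Agent.P011UL.Grp
import Vale.Agent.P011UE3.Gen
import Vale.Agent.P011.H73.GrpLaw
import Vale.Agent.P011.H983.TwoBasisGF
import Vale.Agent.P011.H158.SepSR
import Vale.Agent.P011.H565.Gen
import Vale.Agent.P011.H565.PlaceNorm
import Vale.Agent.P011.H271.PlaceK

/-!
The finite quotients of the adjoint group of a division algebra over a global field are solvable.
-/

open Module Polynomial Topology IntermediateField
open scoped commutatorElement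

namespace Vale.Agent.P011UL

open Vale.Agent.P011 Vale.Agent.P011.H983 Vale.Agent.P011.H73.Gns Vale.Agent.P011.H966
  Vale.Agent.P011UE

section line

variable {k L D : Type} [Field k] [Field L] [DivisionRing D] [Algebra k L] [Algebra k D] {s : D}
  {Q : Type} [Group Q] [Finite Q] {P : Subgroup Q} {ψ : Dˣ →* Q}

/-- The hypotheses of the line theorem. -/
structure Hyp (k : Type) [Field k] [Algebra k L] [Algebra k D] (E : Emb L s) (ψ : Dˣ →* Q)
    (P : Subgroup Q) : Prop where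
  alg : ∀ c : k, E.φ (algebraMap k L c) = algebraMap k D c
  chr : ∀ e : k, e ≠ 0 → CharOK k e
  two : (2 : k) ≠ 0 → ∀ e : k, CharOK k e
  nor : P.Normal
  min : ∀ N : Subgroup Q, N.Normal → N ≤ P → N = ⊥ ∨ N = P
  cen : Subgroup.centralizer (P : Set Q) = ⊥
  triv : ∀ c : k, ex ψ (algebraMap k D c) = 1
  ne : ∀ kap : D → Q, (∀ (g : Dˣ) (y : D), kap (g * y * (g⁻¹ : Dˣ)) = ψ g * kap y * (ψ g)⁻¹) →
    ∀ HS : Set (Equiv.Perm (XS s)), HS ⊆ E.mu.range →
      NE (fun x : XS s => kap x.1) P HS fun b : k => E.T (algebraMap k L b)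

variable [Infinite k] [FiniteDimensional k L] [Algebra.IsSeparable k L] {E : Emb L s}

omit [Finite Q] [Infinite k] [FiniteDimensional k L] [Algebra.IsSeparable k L] in
theorem gen_add {σ : L} (h : k⟮σ⟯ = ⊤) (b : k) : k⟮σ + algebraMap k L b⟯ = ⊤ := by
  rw [eq_top_iff, ← h, adjoin_simple_le_iff]
  have h1 := sub_mem (mem_adjoin_simple_self k (σ + algebraMap k L b))
    (IntermediateField.algebraMap_mem _ b)
  rwa [add_sub_cancel_right] at h1

/-- **The line theorem.** -/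
theorem Hyp.line (H : Hyp k E ψ P) {σ : L} (hgen : k⟮σ⟯ = ⊤) (hσ : ∀ b : k, σ ≠ algebraMap k L b)
    {r₁ r₂ : k} (hr : r₁ ≠ r₂) (hgood : H158.Good (-(r₁ + r₂)) (r₁ * r₂) σ)
    (h : ex ψ (E.φ (σ - algebraMap k L r₁)) = ex ψ (E.φ (σ - algebraMap k L r₂))) (b : k) :
    ex ψ (E.φ (σ + algebraMap k L b - algebraMap k L r₁)) =
      ex ψ (E.φ (σ + algebraMap k L b - algebraMap k L r₂)) := by
  have := Fintype.ofFinite Q
  have := E.solvable
  obtain ⟨R₁, hR₁⟩ : ∃ R, R = algebraMap k L r₁ := ⟨_, rfl⟩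
  obtain ⟨R₂, hR₂⟩ : ∃ R, R = algebraMap k L r₂ := ⟨_, rfl⟩
  obtain ⟨t, ht⟩ : ∃ t : k → L, ∀ b, t b = σ + algebraMap k L b := ⟨_, fun _ => rfl⟩
  have hR : R₁ ≠ R₂ := by
    rw [hR₁, hR₂]
    exact (algebraMap k L).injective.ne hr
  have hn : ∀ b r : k, t b - algebraMap k L r ≠ 0 := fun b r h0 =>
    hσ (r - b) (by rw [map_sub]; rw [ht] at h0; linear_combination h0)
  have hadd : ∀ b₀ b, t (b₀ + b) = t b₀ + algebraMap k L b := fun b₀ b => by
    rw [ht, ht, map_add, add_assoc]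
  have n1 : ∀ b, t b - R₁ ≠ 0 := fun b => hR₁ ▸ hn b r₁
  have n2 : ∀ b, t b - R₂ ≠ 0 := fun b => hR₂ ▸ hn b r₂
  have n3 : ∀ b₀ b, t b₀ + algebraMap k L b - R₁ ≠ 0 := fun b₀ b => hadd b₀ b ▸ n1 _
  have n4 : ∀ b₀ b, t b₀ + algebraMap k L b - R₂ ≠ 0 := fun b₀ b => hadd b₀ b ▸ n2 _
  have hx : ∀ b₀ b, xn (t b₀) (-(r₁ + r₂)) (r₁ * r₂) b =
      (t b₀ + algebraMap k L b - R₁) * (t b₀ + algebraMap k L b - R₂) := fun b₀ b => by
    rw [xn, hR₁, hR₂, map_neg, map_add, map_mul]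
    ring
  have hx0 : ∀ b₀, xn (t b₀) (-(r₁ + r₂)) (r₁ * r₂) 0 = (t b₀ - R₁) * (t b₀ - R₂) := fun b₀ => by
    rw [hx, map_zero, add_zero]
  have hxn : ∀ b₀ b, xn (t b₀) (-(r₁ + r₂)) (r₁ * r₂) b ≠ 0 := fun b₀ b => by
    rw [hx]
    exact mul_ne_zero (n3 _ _) (n4 _ _)
  have hchr : CharOK k (-(r₁ + r₂)) := by
    by_cases h2 : (2 : k) = 0
    · exact H.chr _ fun h0 => hr (by linear_combination -h0 + r₁ * h2 - (r₁ + r₂) * h2)
    · exact H.two h2 _
  have hspan : ∀ b₀, ∃ N0 : ℕ, ∀ B : Finset k, N0 ≤ B.card → Submodule.span k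
      ((fun b : k => (xn (t b₀) (-(r₁ + r₂)) (r₁ * r₂) b)⁻¹) '' (B : Set k)) = ⊤ := fun b₀ =>
    ⟨2 * finrank k L, fun B hB => H158.span_inv_eq_top (ht b₀ ▸ gen_add hgen b₀) (hxn b₀)
      (ht b₀ ▸ H158.good_add hgood b₀) B (hB.trans (Nat.le_succ _))⟩
  have hni : ∀ b₀ b, t b₀ ≠ algebraMap k L b := fun b₀ b => sub_ne_zero.1 (hn b₀ b)
  have hφ : ∀ {l : L}, l ≠ 0 → E.φ l ≠ 0 := fun h => (_root_.map_ne_zero _).2 h
  have hc : ∀ (R : L) (r : k), R = algebraMap k L r → ∀ y, Commute (E.φ R) y := by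
    rintro _ r rfl y
    rw [H.alg]
    exact Algebra.commutes r y
  obtain ⟨kap, hkap⟩ : ∃ kap : D → Q, ∀ y, kap y = ex ψ ((y - E.φ R₁) * (y - E.φ R₂)⁻¹) :=
    ⟨_, fun _ => rfl⟩
  have hk : ∀ (g : Dˣ) (y : D), kap (g * y * (g⁻¹ : Dˣ)) = ψ g * kap y * (ψ g)⁻¹ := fun g y => by
    have h1 : ∀ z : D, (∀ y, Commute z y) →
        g * y * (g⁻¹ : Dˣ) - z = g * (y - z) * (g⁻¹ : Dˣ) := fun z hz => by
      rw [mul_sub, sub_mul, ← (hz g).eq, Units.mul_inv_cancel_right]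
    rw [hkap, hkap, ← ex_conj, h1 _ (hc _ _ hR₁), h1 _ (hc _ _ hR₂), mul_inv_rev, mul_inv_rev,
      ← Units.val_inv_eq_inv_val, ← Units.val_inv_eq_inv_val, inv_inv]
    simp only [mul_assoc, Units.inv_mul_cancel_left]
  have hf : ∀ b, ex ψ (E.φ ((t b - R₁) / (t b - R₂))) =
      ex ψ (E.φ (t b - R₁)) * (ex ψ (E.φ (t b - R₂)))⁻¹ := fun b => by
    rw [div_eq_mul_inv, map_mul, map_inv₀, ex_mul ψ (hφ (n1 b)) (inv_ne_zero (hφ (n2 b))), ex_inv]
  have hw := fun b₀ b => Emb.ww_ne (n1 b₀) (n2 b₀) (n3 b₀ b) (n4 b₀ b)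
  have key := line_perm_omN (k := k) (L := L) H.nor
    (fun r s D _ hD => H73.Grp.pairLaw_iff H.nor H.min H.cen r s D hD)
    (col := fun x : XS s => kap x.1) (f := fun b => ex ψ (E.φ ((t b - R₁) / (t b - R₂))))
    (fun b b' => ex_commute ψ ((Commute.all _ _).map E.φ)) (PE := E.PE) (TT := E.T)
    (fun l => E.up_mem l one_ne_zero one_ne_zero) (Lt := fun b => E.Lt R₁ R₂ (t b))
    (Tk := fun b => E.T (algebraMap k L b)) ?_ ?_
    (gp := fun b₀ b => E.gp R₁ R₂ (t b₀) (algebraMap k L b))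
    (gm := fun b₀ b => E.gm R₁ R₂ (t b₀) (algebraMap k L b))
    (Wk := fun b₀ b => E.Wk R₁ R₂ (t b₀) (algebraMap k L b))
    (wt := fun b₀ b => E.up (Emb.ww R₁ R₂ (t b₀) (algebraMap k L b)) 0
      (Emb.ww R₁ R₂ (t b₀) (algebraMap k L b)))
    (fun b₀ b => E.up_mem 0 (div_ne_zero (n4 _ _) (n2 _)) (div_ne_zero (n1 _) (n3 _ _)))
    (fun b₀ b => E.up_mem 0 (hw _ _) (hw _ _)) (fun b₀ b => ⟨_, rfl⟩) (fun b₀ b => ⟨_, rfl⟩)
    (fun b₀ b => by rw [hadd]; exact E.rel (n1 _) (n2 _) (n3 _ _) (n4 _ _))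
    (fun b₀ b => by rw [hadd, map_neg]; exact E.relm (n1 _) (n2 _) (n3 _ _) (n4 _ _))
    (fun b₀ b l => ⟨_, by rw [E.up_T _ _ (hw _ _) (hw _ _), mul_inv_cancel_right]⟩)
    (fun b₀ b l => ⟨l, by
      rw [mul_assoc, inv_mul_eq_iff_eq_mul, E.up_T _ _ (hw _ _) (hw _ _), div_self (hw _ _),
        one_mul]⟩) ?_
    (fun b₀ => hmean_of_NE E.PE _ (H.ne kap hk _ ?_)) (σ := t) (e₁ := -(r₁ + r₂)) (a := r₁ * r₂)
    (ep := 1) (em := -1)
    (fun b₀ => ⟨hchr, hspan b₀, one_ne_zero, hxn b₀, hni b₀, E.T_add, fun b l => by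
      rw [hx, hx0]; exact E.gp_T (n1 _) (n2 _) (n3 _ _) (n4 _ _) l, fun b c => by
      rw [hx0, one_mul, map_mul, map_mul, map_sub]
      exact E.gp_gp (n1 _) (n2 _) (n3 _ _) (n4 _ _) (n3 _ _) (n4 _ _)⟩)
    (fun b₀ => ⟨hchr, hspan b₀, neg_ne_zero.2 one_ne_zero, hxn b₀, hni b₀, E.T_add, fun b l => by
      rw [hx, hx0]; exact E.gm_T (n1 _) (n2 _) (n3 _ _) (n4 _ _) l, fun b c => by
      rw [hx0, neg_one_mul, map_neg, map_mul, map_mul, map_sub]
      exact E.gm_gm (n1 _) (n2 _) (n3 _ _) (n4 _ _) (n3 _ _) (n4 _ _)⟩) (b₀ := 0) ?_ b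
  · rw [hf, mul_inv_eq_one, ht, hR₁, hR₂] at key
    exact key
  · intro b x
    have h1 := (E.m 1 (-R₁) 1 (-R₂) x).2
    rw [E.cay_val hR] at h1
    rw [hkap, hkap, E.cay_Lt hR (n1 b) (n2 b), ex_mul ψ (hφ (div_ne_zero (n1 b) (n2 b)))
      fun h0 => h1 (by rw [h0, zero_mul, mul_zero])]
  · intro b x
    rw [hkap, hkap, E.T_val]
    have h1 : ∀ y z : D, (∀ R r, R = algebraMap k L r → Commute y (z - E.φ R)) →
        Commute y ((z - E.φ R₁) * (z - E.φ R₂)⁻¹) := fun y z h =>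
      (h _ _ hR₁).mul_right (h _ _ hR₂).inv_right₀
    refine ex_commute ψ (h1 _ _ fun R r hR => (h1 _ _ fun R' r' hR' => ?_).symm)
    exact ((((Commute.refl _).add_left (hc _ _ rfl _)).sub_left (hc _ _ hR _)).sub_right
      (hc _ _ hR' _).symm)
  · intro b₀ b x
    have h1 := hk (Units.mk0 _ (hφ (hw b₀ b))) x.1
    rw [Units.val_inv_eq_inv_val, Units.val_mk0] at h1
    rw [E.up_val (hw _ _) (hw _ _), map_zero, add_zero, h1, ← ex_val, Units.val_mk0, Emb.ww,
      map_mul, map_inv₀, ex_mul ψ (hφ (div_ne_zero (n3 _ _) (n4 _ _)))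
        (inv_ne_zero (hφ (div_ne_zero (n1 _) (n2 _)))), ex_inv, hadd]
  · rintro _ ⟨π, hπ, rfl | rfl⟩
    · exact mul_mem (E.m_mem _ _ _ _) (E.PE_le hπ)
    · exact mul_mem (inv_mem (E.m_mem _ _ _ _)) (E.PE_le hπ)
  · rw [hf, mul_inv_eq_one, ht, map_zero, add_zero, hR₁, hR₂]
    exact h

/-- The periods have finite index. -/
theorem Hyp.period (H : Hyp k E ψ P) {σ : L} (hgen : k⟮σ⟯ = ⊤)
    (hσ : ∀ b : k, σ ≠ algebraMap k L b) : ∃ S : AddSubgroup k, Finite (k ⧸ S) ∧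
      ∀ y ∈ S, ex ψ (E.φ (σ + algebraMap k L y)) = ex ψ (E.φ σ) := by
  let g : k → Q := fun x => ex ψ (E.φ (σ + algebraMap k L x))
  let S : AddSubgroup k :=
    { carrier := {d | ∀ x, g (x + d) = g x}
      zero_mem' := fun x => by rw [add_zero]
      add_mem' := fun {a b} ha hb x => by rw [← add_assoc, hb, ha]
      neg_mem' := fun {a} ha x => by rw [← ha, neg_add_cancel_right] }
  have hB : (⋃ p : (L →ₐ[k] AlgebraicClosure k) × (L →ₐ[k] AlgebraicClosure k),
      algebraMap k (AlgebraicClosure k) ⁻¹' {p.1 σ - p.2 σ}).Finite :=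
    Set.finite_iUnion fun p => (Set.finite_singleton _).preimage (algebraMap k _).injective.injOn
  refine ⟨S, finite_quot S hB g fun x y hxy => ?_, fun y hy => ?_⟩
  · by_cases h0 : x = y
    · exact Or.inr (by rw [h0, sub_self]; exact S.zero_mem)
    rw [or_iff_not_imp_left]
    intro hb z
    have h1 := H.line hgen hσ (r₁ := -x) (r₂ := -y) (neg_injective.ne h0) (fun a b hab => hb (by
      rw [show (-(-x + -y)) ^ 2 - 4 * (-x * -y) = (x - y) ^ 2 by ring, map_pow,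
        sq_eq_sq_iff_eq_or_eq_neg] at hab
      rcases hab with h | h
      · exact Set.mem_iUnion.2 ⟨(a, b), h.symm⟩
      · exact Set.mem_iUnion.2 ⟨(b, a), by
          change _ = b σ - a σ
          rw [← neg_sub (a σ), h, neg_neg]⟩)) (by
      rw [map_neg, map_neg, sub_neg_eq_add, sub_neg_eq_add]
      exact hxy) (z - y)
    rw [add_sub_assoc, add_sub_assoc, ← map_sub, ← map_sub,
      show z - y - -x = z + (x - y) by ring, show z - y - -y = z by ring] at h1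
    exact h1
  · have h1 : g (0 + y) = g 0 := hy 0
    simpa only [g, zero_add, map_zero, add_zero] using h1

/-- The homomorphism kills the generators. -/
theorem Hyp.eq_one (H : Hyp k E ψ P) {σ : L} (hgen : k⟮σ⟯ = ⊤)
    (hσ : ∀ b : k, σ ≠ algebraMap k L b) : ex ψ (E.φ σ) = 1 := by
  have h0 : σ ≠ 0 := map_zero (algebraMap k L) ▸ hσ 0
  obtain ⟨S, _, hS⟩ := H.period hgen hσ
  obtain ⟨T, _, hT⟩ := H.period (σ := σ⁻¹) (by
    rw [eq_top_iff, ← hgen, adjoin_simple_le_iff]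
    simpa using inv_mem (mem_adjoin_simple_self k σ⁻¹))
    fun b hb => hσ b⁻¹ (by rw [map_inv₀, ← hb, inv_inv])
  obtain ⟨y, hy, h1, h2⟩ := exists_inv_mem S T
  have h3 := hT _ h2
  have hy' : algebraMap k L y ≠ 0 := (_root_.map_ne_zero _).2 hy
  have h4 : σ + algebraMap k L y ≠ 0 := fun h => hσ (-y) (by
    rw [map_neg]; exact eq_neg_of_add_eq_zero_left h)
  have hφ : ∀ {l : L}, l ≠ 0 → E.φ l ≠ 0 := fun h => (_root_.map_ne_zero _).2 h
  rw [show σ⁻¹ + algebraMap k L y⁻¹ = σ⁻¹ * ((σ + algebraMap k L y) * algebraMap k L y⁻¹) by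
    rw [map_inv₀]; field_simp; ring, map_mul, map_mul, ex_mul ψ (hφ (inv_ne_zero h0))
      (mul_ne_zero (hφ h4) (hφ ((_root_.map_ne_zero _).2 (inv_ne_zero hy)))),
    ex_mul ψ (hφ h4) (hφ ((_root_.map_ne_zero _).2 (inv_ne_zero hy))), H.alg, H.triv, mul_one, hS y h1,
    mul_eq_left] at h3
  exact h3

end line

/-- The field generated by a separable element. -/
theorem exists_field {k D : Type} [Field k] [DivisionRing D] [Algebra k D] [FiniteDimensional k D]
    {s : D} (hs : (minpoly k s).Separable) :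
    ∃ (L : Type) (_ : Field L) (_ : Algebra k L) (_ : FiniteDimensional k L)
      (_ : Algebra.IsSeparable k L) (φ : L →ₐ[k] D) (σ : L), φ σ = s ∧ k⟮σ⟯ = ⊤ ∧
      ∀ l, φ l ∈ Algebra.adjoin k {s} := by
  have hi : IsIntegral k s := Algebra.IsIntegral.isIntegral s
  have : Fact (Irreducible (minpoly k s)) := ⟨minpoly.irreducible hi⟩
  let φ : AdjoinRoot (minpoly k s) →ₐ[k] D :=
    Ideal.Quotient.liftₐ (Ideal.span {minpoly k s}) (aeval s) fun p hp =>
      aeval_eq_zero_of_dvd_aeval_eq_zero (Ideal.mem_span_singleton.1 hp) (minpoly.aeval k s)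
  have hφ : ∀ p, φ (AdjoinRoot.mk _ p) = aeval s p := fun _ => rfl
  have h1 : φ (AdjoinRoot.root _) = s := (hφ X).trans (aeval_X s)
  have h2 : k⟮AdjoinRoot.root (minpoly k s)⟯ = ⊤ := by
    rw [eq_top_iff]
    intro x _
    refine algebra_adjoin_le_adjoin k _ ?_
    rw [AdjoinRoot.adjoinRoot_eq_top]
    exact Algebra.mem_top
  have h3 : IsSeparable k (AdjoinRoot.root (minpoly k s)) := by
    rw [IsSeparable, ← minpoly.algHom_eq φ φ.injective, h1]
    exact hs
  have h4 := (isSeparable_adjoin_simple_iff_isSeparable k _).2 h3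
  rw [h2] at h4
  refine ⟨_, inferInstance, inferInstance, (AdjoinRoot.powerBasis (minpoly.ne_zero hi)).finite,
    Algebra.IsSeparable.of_algHom k _ (topEquiv (F := k)).symm.toAlgHom, φ, _, h1, h2,
    fun l => ?_⟩
  obtain ⟨p, rfl⟩ := AdjoinRoot.mk_surjective l
  rw [hφ]
  exact aeval_mem_adjoin_singleton k s

theorem denseRange_split {K D F : Type} [Field K] [DivisionRing D] [Algebra K D]
    [NormedField F] [Algebra K F] {n : ℕ} (f : D →ₐ[K] Matrix (Fin n) (Fin n) F)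
    (hd : DenseRange (algebraMap K F)) (hspan : Submodule.span F (Set.range f) = ⊤) :
    DenseRange f := by
  intro A
  have key : ∀ B ∈ Submodule.span F (Set.range f), ∀ c : F, c • B ∈ closure (Set.range f) := by
    intro B hB
    induction hB using Submodule.span_induction with
    | mem B hB =>
      obtain ⟨b, rfl⟩ := hB
      intro c
      refine hd.induction_on c (isClosed_closure.preimage (continuous_id.smul continuous_const))
        fun a => subset_closure ⟨a • b, ?_⟩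
      rw [map_smul, algebraMap_smul]
    | zero => exact fun c => subset_closure ⟨0, by rw [map_zero, smul_zero]⟩
    | add B B' _ _ h1 h2 =>
      intro c
      rw [smul_add]
      exact map_mem_closure₂ continuous_add (h1 c) (h2 c) (by
        rintro _ ⟨a, rfl⟩ _ ⟨b, rfl⟩
        exact ⟨a + b, map_add f a b⟩)
    | smul a B _ h1 => exact fun c => by rw [← mul_smul]; exact h1 _
  simpa using key A (hspan ▸ Submodule.mem_top) 1

theorem charOK {k : Type} [Field k] (h : P011L.Glob k) {e : k} (he : (2 : k) = 0 → e ≠ 0) :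
    CharOK k e := by
  rcases h with h | h
  · exact charOK_zero e
  · exact charOK_gff (H271.gff_of_isGlobal h) he

theorem open_units {F A : Type} [NontriviallyNormedField F] [CompleteSpace F] [NormedRing A]
    [NormedAlgebra F A] [FiniteDimensional F A] : IsOpenEmbedding (Units.val : Aˣ → A) := by
  have : CompleteSpace A := FiniteDimensional.complete F A
  exact Units.isOpenEmbedding_val

theorem ker_top {k D F : Type} [Field k] [DivisionRing D] [Algebra k D] [Algebra.IsCentral k D]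
    [NontriviallyNormedField F] [CompleteSpace F] [Algebra k F] {n : ℕ} (hn : n ≠ 0)
    (hD : finrank k D = n ^ 2) (f : D →ₐ[k] Matrix (Fin n) (Fin n) F)
    (hd : DenseRange (algebraMap k F)) (M : Subgroup Dˣ)
    (h : ∀ u : Dˣ, f u ∈ H210.SR (Fin n) F → u ∈ M) : M = ⊤ := by
  have : NeZero n := ⟨hn⟩
  have hinf : Infinite F := Set.infinite_univ_iff.1 (infinite_of_mem_nhds (1 : F) Filter.univ_mem)
  have hdf := denseRange_split f hd (P011UE3.span_top hn hD f)
  have hemb : IsOpenEmbedding (Units.val : (Matrix (Fin n) (Fin n) F)ˣ → _) :=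
    @open_units F _ _ _ Matrix.linftyOpNormedRing Matrix.linftyOpNormedAlgebra _
  refine H565.eq_top_of_dense (Units.map (f : D →* Matrix (Fin n) (Fin n) F)) (fun g => ?_)
    (S := H565.SRS (Fin n) F) ((H210.isOpen_SR (ι := Fin n) (F := F)).preimage Units.continuous_val)
    H565.SRS_nonempty H565.closure_splitReg M h
  rw [mem_closure_iff_nhds]
  intro O hO
  obtain ⟨_, ⟨g', hg', rfl⟩, y, hy⟩ := mem_closure_iff_nhds.1 (hdf g) _
    (hemb.isOpenMap.image_mem_nhds hO)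
  have h0 : y ≠ 0 := by
    rintro rfl
    exact g'.ne_zero (by rw [← hy, map_zero])
  exact ⟨g', hg', Units.mk0 y h0, Units.ext hy⟩

theorem infinite_of_dense {k F : Type} [Field k] [NontriviallyNormedField F] [Algebra k F]
    (hd : DenseRange (algebraMap k F)) : Infinite k := by
  rw [← not_finite_iff_infinite]
  intro hf
  have h1 := (Set.finite_range (algebraMap k F)).isClosed.closure_eq
  rw [hd.closure_range] at h1
  exact infinite_of_mem_nhds (1 : F) Filter.univ_mem (h1 ▸ Set.finite_range (algebraMap k F))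

theorem eq_one_of_SR {k D F Q : Type} [Field k] [Infinite k] [DivisionRing D] [Algebra k D]
    [FiniteDimensional k D] [Field F] [Algebra k F] [Group Q] [Finite Q] {n : ℕ} {N : D →* k}
    (hD : Dv k D n N) (f : D →ₐ[k] Matrix (Fin n) (Fin n) F) {ψ : Dˣ →* Q}
    (hk : ∀ u : Dˣ, (u : D) ∈ Set.range (algebraMap k D) → ψ u = 1) {P : Subgroup Q}
    (hP : P.Normal) (hmin : ∀ N : Subgroup Q, N.Normal → N ≤ P → N = ⊥ ∨ N = P)
    (hC : Subgroup.centralizer (P : Set Q) = ⊥) {u : Dˣ} (hu : f u ∈ H210.SR (Fin n) F)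
    (h : ∀ kap : D → Q,
      (∀ (g : Dˣ) (y : D), kap (g * y * (g⁻¹ : Dˣ)) = ψ g * kap y * (ψ g)⁻¹) →
      ∀ (HS : Set (Equiv.Perm (XS (u : D)))) (Tk : k → Equiv.Perm (XS (u : D))),
        (∀ h ∈ HS, Mob k (u : D) h) → (∀ b x, (Tk b x).1 = x.1 + algebraMap k D b) →
        NE (fun x : XS (u : D) => kap x.1) P HS Tk) : ψ u = 1 := by
  have := hD.central
  have hn : n ≠ 0 := by have := hD.le; omega
  obtain ⟨hsep, hdeg⟩ := H158.minpoly_of_SR (algebraMap k F) (f : D →+* Matrix (Fin n) (Fin n) F)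
    (fun c => f.commutes c) (P011UE3.span_top hn hD.rank f) hD.rank hu
  obtain ⟨L, _, _, _, _, φ, σ, h1, h2, h3⟩ := exists_field hsep
  let E : Emb L (u : D) := ⟨φ, fun l => (Algebra.commute_of_mem_adjoin_self (h3 l)).symm⟩
  have H : Hyp k E ψ P := ⟨φ.commutes, fun e he => charOK hD.glob fun _ => he,
    fun h2 e => Or.inl h2, hP, hmin, hC, fun c => ?_, fun kap hkap HS hHS => ?_⟩
  · have h4 := H.eq_one h2 fun b hb => by
      rw [← h1, hb, φ.commutes, minpoly.eq_X_sub_C, natDegree_X_sub_C] at hdeg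
      have := hD.le
      omega
    rw [← ex_val, ← h1]
    exact h4
  · by_cases hc : algebraMap k D c = 0
    · rw [hc, ex_zero]
    · rw [← Units.val_mk0 hc, ex_val]
      exact hk _ ⟨c, rfl⟩
  · refine h kap hkap HS _ (fun π hπ => ?_) fun b x => (E.T_val _ x).trans ?_
    · obtain ⟨g, rfl⟩ := hHS hπ
      refine ⟨_, h3 (g 0 0), _, h3 (g 0 1), _, h3 (g 1 0), _, h3 (g 1 1), ?_, fun x => rfl⟩
      rw [← map_mul, ← map_mul, ← map_sub]
      exact (_root_.map_ne_zero _).2 (Emb.det_ne g)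
    · exact congrArg _ (φ.commutes b)

/-- **The finite quotients of the adjoint group are solvable.** -/
theorem rss_of (hNE : NEM) : RSS := by
  intro k D _ _ _ _ n N hD Q _ _ ψ hψ hk
  have := hD.central
  have hn : n ≠ 0 := by have := hD.le; omega
  refine solvable_of_min {u : Dˣ | (u : D) ∈ Set.range (algebraMap k D)} ?_ _ Q ψ rfl hψ hk
  intro Q _ _ ψ hψ hk P hP hmin hC
  obtain ⟨v, f, h⟩ := hNE k D n N hD Q ψ hψ hk P hP (perfect_of_min hP hmin hC)
  have hd := H565.denseRange_comp v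
  have hinf : Infinite k := @infinite_of_dense k v.comp _ (H565.nnfP v) _ hd
  have htop := @ker_top k D v.comp _ _ _ _ (H565.nnfP v)
    (inferInstanceAs (CompleteSpace v.comp)) _ n hn hD.rank f hd ψ.ker fun u hu =>
      eq_one_of_SR hD f hk hP hmin hC hu (h u hu)
  rw [eq_bot_iff]
  intro x _
  obtain ⟨u, rfl⟩ := hψ x
  exact MonoidHom.mem_ker.1 (htop ▸ Subgroup.mem_top u)

end Vale.Agent.P011UL
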