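import Vale.Agent.P011UE.Spec
import Vale.Agent.P011.H966.NE
import Vale.Agent.P011.H210.SplitReg

/-!
The analytic input of the line theorem for the multiplicative group of a division algebra.
-/

namespace Vale.Agent.P011UL

open Vale.Agent.P011UE Vale.Agent.P011
open Vale.Agent.P011.H738 (Place)
open scoped commutatorElement

/-- The elements which do not commute with `s`. -/
abbrev XS {D : Type} [DivisionRing D] (s : D) : Type := {y : D // y * s ≠ s * y}

/-- The permutation is a Moebius transformation with coefficients in `k[s]`. -/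
def Mob (k : Type) {D : Type} [Field k] [DivisionRing D] [Algebra k D] (s : D)
    (h : Equiv.Perm (XS s)) : Prop :=
  ∃ a ∈ Algebra.adjoin k {s}, ∃ b ∈ Algebra.adjoin k {s}, ∃ c ∈ Algebra.adjoin k {s},
    ∃ d ∈ Algebra.adjoin k {s}, a * d - b * c ≠ 0 ∧
      ∀ x, (h x).1 = (a * x.1 + b) * (c * x.1 + d)⁻¹

/-- The laws of the pairs are almost invariant under a perfect normal subgroup. -/
def NEM : Prop := All fun k D _ _ _ _ n _ =>
  ∀ (Q : Type) [Group Q] [Finite Q] (ψ : Dˣ →* Q), Function.Surjective ψ →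
    (∀ u : Dˣ, (u : D) ∈ Set.range (algebraMap k D) → ψ u = 1) →
    ∀ P : Subgroup Q, P.Normal → ⁅P, P⁆ = P →
    ∃ (v : Place k) (f : D →ₐ[k] Matrix (Fin n) (Fin n) v.comp),
      ∀ s : D, f s ∈ H210.SR (Fin n) v.comp → ∀ kap : D → Q,
        (∀ (g : Dˣ) (y : D), kap (g * y * (g⁻¹ : Dˣ)) = ψ g * kap y * (ψ g)⁻¹) →
        ∀ (HS : Set (Equiv.Perm (XS s))) (Tk : k → Equiv.Perm (XS s)),
          (∀ h ∈ HS, Mob k s h) → (∀ b x, (Tk b x).1 = x.1 + algebraMap k D b) →
          H966.NE (fun x : XS s => kap x.1) P HS Tk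

end Vale.Agent.P011UL
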