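import Vale.Agent.P011UL.Mob
import Vale.Agent.P011.H983.LineOmN
import Vale.Agent.P011.H158.Good

/-!
The line theorem for the multiplicative group of a division ring.
-/

namespace Vale.Agent.P011UL

open Vale.Agent.P011 Vale.Agent.P011.H983 Vale.Agent.P011.H73.Gns Vale.Agent.P011.H966

variable {L D : Type} [Field L] [DivisionRing D] {s : D} {Q : Type} [Group Q]

open Classical in
/-- The extension by one of a homomorphism on the units. -/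
noncomputable def ex (ψ : Dˣ →* Q) (z : D) : Q := if h : z ≠ 0 then ψ (Units.mk0 z h) else 1

theorem ex_val (ψ : Dˣ →* Q) (u : Dˣ) : ex ψ u = ψ u := by
  rw [ex, dif_pos u.ne_zero, Units.mk0_val]

theorem ex_zero (ψ : Dˣ →* Q) : ex ψ 0 = 1 := dif_neg (not_not.2 rfl)

theorem ex_mul (ψ : Dˣ →* Q) {a b : D} (ha : a ≠ 0) (hb : b ≠ 0) :
    ex ψ (a * b) = ex ψ a * ex ψ b := by
  rw [← Units.val_mk0 ha, ← Units.val_mk0 hb, ← Units.val_mul, ex_val, ex_val, ex_val, map_mul]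

theorem ex_inv (ψ : Dˣ →* Q) (a : D) : ex ψ a⁻¹ = (ex ψ a)⁻¹ := by
  by_cases ha : a = 0
  · rw [ha, inv_zero, ex_zero, inv_one]
  · rw [← Units.val_mk0 ha, ← Units.val_inv_eq_inv_val, ex_val, ex_val, map_inv]

theorem ex_conj (ψ : Dˣ →* Q) (g : Dˣ) (z : D) :
    ex ψ (g * z * (g⁻¹ : Dˣ)) = ψ g * ex ψ z * (ψ g)⁻¹ := by
  by_cases hz : z = 0
  · rw [hz, mul_zero, zero_mul, ex_zero, mul_one, mul_inv_cancel]
  · rw [ex_mul ψ (mul_ne_zero g.ne_zero hz) (g⁻¹).ne_zero, ex_mul ψ g.ne_zero hz, ex_val, ex_val,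
      map_inv]

theorem ex_commute (ψ : Dˣ →* Q) {a b : D} (h : Commute a b) : Commute (ex ψ a) (ex ψ b) := by
  by_cases ha : a = 0
  · rw [ha, ex_zero]
    exact Commute.one_left _
  by_cases hb : b = 0
  · rw [hb, ex_zero]
    exact Commute.one_right _
  change _ = _
  rw [← ex_mul ψ ha hb, ← ex_mul ψ hb ha, h.eq]

namespace Emb

variable (E : Emb L s) (r₁ r₂ : L)

/-- The multiplication by `(t - r₁) / (t - r₂)` in the chart. -/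
noncomputable def Lt (t : L) : Equiv.Perm (XS s) :=
  E.m (t / (t - r₂)) (-(r₁ * r₂) / (t - r₂)) (1 / (t - r₂)) ((t - r₁ - r₂) / (t - r₂))

/-- The diagonal part of the one-step map. -/
noncomputable def Wk (t b : L) : Equiv.Perm (XS s) :=
  E.up ((t + b - r₂) / (t - r₂)) 0 ((t - r₁) / (t + b - r₁))

/-- The scalar. -/
def ww (t b : L) : L := (t + b - r₁) / (t + b - r₂) * ((t - r₁) / (t - r₂))⁻¹

/-- The translation part. -/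
def vp (t b : L) : L := b * ((t - r₁ - r₂) * (t + b - r₁ - r₂) - r₁ * r₂) / ((t - r₁) * (t - r₂))

/-- The translation part of the second family. -/
def vm (t b : L) : L := -(b * (t * (t + b) - r₁ * r₂)) / ((t - r₁) * (t - r₂))

/-- The first family. -/
noncomputable def gp (t b : L) : Equiv.Perm (XS s) := E.T (vp r₁ r₂ t b) * E.Wk r₁ r₂ t b

/-- The second family. -/
noncomputable def gm (t b : L) : Equiv.Perm (XS s) :=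
  E.T (vm r₁ r₂ t b) * E.up (ww r₁ r₂ t b) 0 (ww r₁ r₂ t b) * E.Wk r₁ r₂ t b

variable {r₁ r₂} {t b c : L}

theorem Lt_det (h1 : t - r₁ ≠ 0) (h2 : t - r₂ ≠ 0) : t / (t - r₂) * ((t - r₁ - r₂) / (t - r₂)) -
    -(r₁ * r₂) / (t - r₂) * (1 / (t - r₂)) ≠ 0 := by
  rw [show t / (t - r₂) * ((t - r₁ - r₂) / (t - r₂)) - -(r₁ * r₂) / (t - r₂) * (1 / (t - r₂)) =
    (t - r₁) / (t - r₂) by field_simp; ring]
  exact div_ne_zero h1 h2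

theorem T_up {a d : L} (l e : L) (ha : a ≠ 0) (hd : d ≠ 0) :
    E.T l * E.up a e d = E.up a (e + l * d) d := by
  rw [T, E.up_mul one_ne_zero one_ne_zero ha hd, one_mul, one_mul, one_mul]

theorem up_T {a d : L} (l e : L) (ha : a ≠ 0) (hd : d ≠ 0) :
    E.up a e d * E.T l = E.T (a / d * l) * E.up a e d := by
  rw [E.T_up _ _ ha hd, T, E.up_mul ha hd one_ne_zero one_ne_zero]
  exact E.up_congr (mul_one a) (by field_simp; ring) (mul_one d)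

theorem ww_ne (h1 : t - r₁ ≠ 0) (h2 : t - r₂ ≠ 0) (h3 : t + b - r₁ ≠ 0) (h4 : t + b - r₂ ≠ 0) :
    ww r₁ r₂ t b ≠ 0 := mul_ne_zero (div_ne_zero h3 h4) (inv_ne_zero (div_ne_zero h1 h2))

theorem gp_eq (h1 : t - r₁ ≠ 0) (h2 : t - r₂ ≠ 0) (h3 : t + b - r₁ ≠ 0) (h4 : t + b - r₂ ≠ 0) :
    E.gp r₁ r₂ t b = E.up ((t + b - r₂) / (t - r₂)) (vp r₁ r₂ t b * ((t - r₁) / (t + b - r₁)))
      ((t - r₁) / (t + b - r₁)) := by
  rw [gp, Wk, E.T_up _ _ (div_ne_zero h4 h2) (div_ne_zero h1 h3), zero_add]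

theorem gm_eq (h1 : t - r₁ ≠ 0) (h2 : t - r₂ ≠ 0) (h3 : t + b - r₁ ≠ 0) (h4 : t + b - r₂ ≠ 0) :
    E.gm r₁ r₂ t b = E.up ((t + b - r₁) / (t - r₁)) (vm r₁ r₂ t b * ((t - r₂) / (t + b - r₂)))
      ((t - r₂) / (t + b - r₂)) := by
  have hw := ww_ne h1 h2 h3 h4
  rw [gm, Wk, mul_assoc, E.up_mul hw hw (div_ne_zero h4 h2) (div_ne_zero h1 h3),
    E.T_up _ _ (mul_ne_zero hw (div_ne_zero h4 h2)) (mul_ne_zero hw (div_ne_zero h1 h3))]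
  refine E.up_congr ?_ ?_ ?_ <;> unfold ww <;> field_simp
  ring

theorem rel (h1 : t - r₁ ≠ 0) (h2 : t - r₂ ≠ 0) (h3 : t + b - r₁ ≠ 0) (h4 : t + b - r₂ ≠ 0) :
    E.T b * E.Lt r₁ r₂ t = E.Lt r₁ r₂ (t + b) * E.gp r₁ r₂ t b := by
  rw [E.gp_eq h1 h2 h3 h4, T, up, up, Lt, Lt, E.m_mul (up_det one_ne_zero one_ne_zero)
    (Lt_det h1 h2), E.m_mul (Lt_det h3 h4) (up_det (div_ne_zero h4 h2) (div_ne_zero h1 h3))]
  refine E.m_congr ?_ ?_ ?_ ?_ <;> (try unfold vp) <;> field_simp <;> ring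

theorem relm (h1 : t - r₁ ≠ 0) (h2 : t - r₂ ≠ 0) (h3 : t + b - r₁ ≠ 0) (h4 : t + b - r₂ ≠ 0) :
    E.T (-b) * (E.Lt r₁ r₂ t)⁻¹ = (E.Lt r₁ r₂ (t + b))⁻¹ * E.gm r₁ r₂ t b := by
  rw [eq_inv_mul_iff_mul_eq, ← mul_assoc, mul_inv_eq_iff_eq_mul, E.gm_eq h1 h2 h3 h4, T, up, up,
    Lt, Lt, E.m_mul (Lt_det h3 h4) (up_det one_ne_zero one_ne_zero),
    E.m_mul (up_det (div_ne_zero h3 h1) (div_ne_zero h2 h4)) (Lt_det h1 h2)]
  refine E.m_congr ?_ ?_ ?_ ?_ <;> (try unfold vm) <;> field_simp <;> ring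

theorem gp_T (h1 : t - r₁ ≠ 0) (h2 : t - r₂ ≠ 0) (h3 : t + b - r₁ ≠ 0) (h4 : t + b - r₂ ≠ 0)
    (l : L) : E.gp r₁ r₂ t b * E.T l =
      E.T ((t + b - r₁) * (t + b - r₂) / ((t - r₁) * (t - r₂)) * l) * E.gp r₁ r₂ t b := by
  rw [E.gp_eq h1 h2 h3 h4, E.up_T _ _ (div_ne_zero h4 h2) (div_ne_zero h1 h3)]
  congr 3
  field_simp

theorem gm_T (h1 : t - r₁ ≠ 0) (h2 : t - r₂ ≠ 0) (h3 : t + b - r₁ ≠ 0) (h4 : t + b - r₂ ≠ 0)
    (l : L) : E.gm r₁ r₂ t b * E.T l =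
      E.T ((t + b - r₁) * (t + b - r₂) / ((t - r₁) * (t - r₂)) * l) * E.gm r₁ r₂ t b := by
  rw [E.gm_eq h1 h2 h3 h4, E.up_T _ _ (div_ne_zero h3 h1) (div_ne_zero h2 h4)]
  congr 3
  field_simp

theorem gp_gp (h1 : t - r₁ ≠ 0) (h2 : t - r₂ ≠ 0) (h3 : t + b - r₁ ≠ 0) (h4 : t + b - r₂ ≠ 0)
    (h5 : t + c - r₁ ≠ 0) (h6 : t + c - r₂ ≠ 0) : E.gp r₁ r₂ t c * E.gp r₁ r₂ t b =
      E.T (c * b * (b - c) / ((t - r₁) * (t - r₂))) * (E.gp r₁ r₂ t b * E.gp r₁ r₂ t c) := by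
  have a1 := div_ne_zero h4 h2
  have a2 := div_ne_zero h1 h3
  have a3 := div_ne_zero h6 h2
  have a4 := div_ne_zero h1 h5
  rw [E.gp_eq h1 h2 h3 h4, E.gp_eq h1 h2 h5 h6, E.up_mul a3 a4 a1 a2, E.up_mul a1 a2 a3 a4,
    E.T_up _ _ (mul_ne_zero a1 a3) (mul_ne_zero a2 a4)]
  refine E.up_congr (mul_comm _ _) ?_ (mul_comm _ _)
  unfold vp
  field_simp
  ring

theorem gm_gm (h1 : t - r₁ ≠ 0) (h2 : t - r₂ ≠ 0) (h3 : t + b - r₁ ≠ 0) (h4 : t + b - r₂ ≠ 0)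
    (h5 : t + c - r₁ ≠ 0) (h6 : t + c - r₂ ≠ 0) : E.gm r₁ r₂ t c * E.gm r₁ r₂ t b =
      E.T (-(c * b * (b - c)) / ((t - r₁) * (t - r₂))) * (E.gm r₁ r₂ t b * E.gm r₁ r₂ t c) := by
  have a1 := div_ne_zero h3 h1
  have a2 := div_ne_zero h2 h4
  have a3 := div_ne_zero h5 h1
  have a4 := div_ne_zero h2 h6
  rw [E.gm_eq h1 h2 h3 h4, E.gm_eq h1 h2 h5 h6, E.up_mul a3 a4 a1 a2, E.up_mul a1 a2 a3 a4,
    E.T_up _ _ (mul_ne_zero a1 a3) (mul_ne_zero a2 a4)]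
  refine E.up_congr (mul_comm _ _) ?_ (mul_comm _ _)
  unfold vm
  field_simp
  ring

theorem cay_det (hr : r₁ ≠ r₂) : 1 * -r₂ - -r₁ * 1 ≠ 0 := by
  rw [show 1 * -r₂ - -r₁ * 1 = r₁ - r₂ by ring]
  exact sub_ne_zero.2 hr

theorem cay_val (hr : r₁ ≠ r₂) (x : XS s) :
    (E.m 1 (-r₁) 1 (-r₂) x).1 = (x.1 - E.φ r₁) * (x.1 - E.φ r₂)⁻¹ := by
  rw [E.m_val (cay_det hr)]
  simp only [map_one, one_mul, map_neg, sub_eq_add_neg]

theorem cay_Lt (hr : r₁ ≠ r₂) (h1 : t - r₁ ≠ 0) (h2 : t - r₂ ≠ 0) (x : XS s) :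
    ((E.Lt r₁ r₂ t x).1 - E.φ r₁) * ((E.Lt r₁ r₂ t x).1 - E.φ r₂)⁻¹ =
      E.φ ((t - r₁) / (t - r₂)) * ((x.1 - E.φ r₁) * (x.1 - E.φ r₂)⁻¹) := by
  have h : E.m 1 (-r₁) 1 (-r₂) * E.Lt r₁ r₂ t =
      E.up ((t - r₁) / (t - r₂)) 0 1 * E.m 1 (-r₁) 1 (-r₂) := by
    rw [Lt, up, E.m_mul (cay_det hr) (Lt_det h1 h2),
      E.m_mul (up_det (div_ne_zero h1 h2) one_ne_zero) (cay_det hr)]
    refine E.m_congr ?_ ?_ ?_ ?_ <;> field_simp <;> ring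
  rw [← E.cay_val hr, ← E.cay_val hr, ← Equiv.Perm.mul_apply, h, Equiv.Perm.mul_apply,
    E.up_val (div_ne_zero h1 h2) one_ne_zero]
  simp

end Emb

end Vale.Agent.P011UL
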