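import Vale.Agent.P011UL.Defs
import Vale.Agent.P011.H722.Mean

/-!
The action of `GL_2(L)` on the elements of a division ring which do not commute with `s`, where `L`
is a subfield which commutes with `s`.
-/

open Matrix
open scoped commutatorElement

namespace Vale.Agent.P011UL

open Vale.Agent.P011

variable {L D : Type} [Field L] [DivisionRing D] {s : D}

/-- A homomorphism whose image commutes with `s`. -/
structure Emb (L : Type) [Field L] (s : D) where
  φ : L →+* D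
  comm : ∀ l, Commute (φ l) s

namespace Emb

variable (E : Emb L s)

theorem den {a b c d : L} (h : a * d - b * c ≠ 0) (x : XS s) : E.φ c * x.1 + E.φ d ≠ 0 := by
  intro h0
  by_cases hc : c = 0
  · rw [hc, map_zero, zero_mul, zero_add, map_eq_zero] at h0
    exact h (by rw [hc, h0]; ring)
  · have h1 : x.1 = E.φ (-(c⁻¹ * d)) := by
      rw [map_neg, map_mul, ← mul_neg, ← eq_neg_of_add_eq_zero_left h0, ← mul_assoc, ← map_mul,
        inv_mul_cancel₀ hc, map_one, one_mul]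
    exact x.2 (h1 ▸ E.comm _)

theorem val_mem {a b c d : L} (h : a * d - b * c ≠ 0) (x : XS s) :
    ¬Commute ((E.φ a * x.1 + E.φ b) * (E.φ c * x.1 + E.φ d)⁻¹) s := by
  intro hz
  obtain ⟨z, hzd⟩ : ∃ z, z = (E.φ a * x.1 + E.φ b) * (E.φ c * x.1 + E.φ d)⁻¹ := ⟨_, rfl⟩
  rw [← hzd] at hz
  have h1 : z * (E.φ c * x.1 + E.φ d) = E.φ a * x.1 + E.φ b := by
    rw [hzd, inv_mul_cancel_right₀ (E.den h x)]
  have h2 : (E.φ a - z * E.φ c) * x.1 = z * E.φ d - E.φ b := by
    rw [sub_mul, sub_eq_sub_iff_add_eq_add, ← h1, mul_add, mul_assoc, add_comm]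
  by_cases h3 : E.φ a - z * E.φ c = 0
  · rw [h3, zero_mul, eq_comm, sub_eq_zero] at h2
    rw [sub_eq_zero] at h3
    refine h (E.φ.injective ?_)
    rw [map_sub, map_mul, map_mul, h3, ← h2, mul_assoc, mul_assoc, ← map_mul, ← map_mul,
      mul_comm c d, sub_self, map_zero]
  · have h4 : x.1 = (E.φ a - z * E.φ c)⁻¹ * (z * E.φ d - E.φ b) := by
      rw [← h2, inv_mul_cancel_left₀ h3]
    refine x.2 ?_
    rw [h4]
    exact (((E.comm a).sub_left (hz.mul_left (E.comm c))).inv_left₀.mul_left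
      ((hz.mul_left (E.comm d)).sub_left (E.comm b))).eq

theorem det_ne (g : GL (Fin 2) L) : g 0 0 * g 1 1 - g 0 1 * g 1 0 ≠ 0 := by
  rw [← det_fin_two]
  exact g.det_ne_zero

/-- The action. -/
def act (g : GL (Fin 2) L) (x : XS s) : XS s :=
  ⟨(E.φ (g 0 0) * x.1 + E.φ (g 0 1)) * (E.φ (g 1 0) * x.1 + E.φ (g 1 1))⁻¹,
    E.val_mem (det_ne g) x⟩

theorem act_one (x : XS s) : E.act 1 x = x := Subtype.ext (by simp [act])

theorem act_mul (g h : GL (Fin 2) L) (x : XS s) : E.act (g * h) x = E.act g (E.act h x) := by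
  refine Subtype.ext ?_
  have h0 := E.den (det_ne h) x
  have key : ∀ a b : L, E.φ a * (E.act h x).1 + E.φ b = (E.φ (a * h 0 0 + b * h 1 0) * x.1 +
      E.φ (a * h 0 1 + b * h 1 1)) * (E.φ (h 1 0) * x.1 + E.φ (h 1 1))⁻¹ := fun a b => by
    rw [eq_mul_inv_iff_mul_eq₀ h0, add_mul, mul_assoc]
    simp only [act, inv_mul_cancel_right₀ h0, map_add, map_mul]
    noncomm_ring
  change _ = (E.φ _ * (E.act h x).1 + _) * (E.φ _ * (E.act h x).1 + _)⁻¹
  rw [key, key, _root_.mul_inv_rev, inv_inv, mul_assoc, inv_mul_cancel_left₀ h0]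
  simp only [act, Units.val_mul, mul_apply, Fin.sum_univ_two]

/-- The action as a homomorphism to the permutations. -/
def mu : GL (Fin 2) L →* Equiv.Perm (XS s) where
  toFun g := ⟨E.act g, E.act g⁻¹, fun x => by rw [← act_mul, inv_mul_cancel, act_one],
    fun x => by rw [← act_mul, mul_inv_cancel, act_one]⟩
  map_one' := Equiv.ext E.act_one
  map_mul' g h := Equiv.ext (E.act_mul g h)

open Classical in
/-- The permutation of a matrix. -/
noncomputable def m (a b c d : L) : Equiv.Perm (XS s) :=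
  E.mu (if h : a * d - b * c ≠ 0 then
    GeneralLinearGroup.mkOfDetNeZero !![a, b; c, d] (by rwa [det_fin_two_of]) else 1)

theorem m_mem (a b c d : L) : E.m a b c d ∈ E.mu.range := ⟨_, rfl⟩

theorem m_val {a b c d : L} (h : a * d - b * c ≠ 0) (x : XS s) :
    (E.m a b c d x).1 = (E.φ a * x.1 + E.φ b) * (E.φ c * x.1 + E.φ d)⁻¹ := by
  rw [m, dif_pos h]
  rfl

theorem m_mul {a b c d a' b' c' d' : L} (h : a * d - b * c ≠ 0) (h' : a' * d' - b' * c' ≠ 0) :
    E.m a b c d * E.m a' b' c' d' =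
      E.m (a * a' + b * c') (a * b' + b * d') (c * a' + d * c') (c * b' + d * d') := by
  have h2 : (a * a' + b * c') * (c * b' + d * d') - (a * b' + b * d') * (c * a' + d * c') ≠ 0 := by
    rw [show (a * a' + b * c') * (c * b' + d * d') - (a * b' + b * d') * (c * a' + d * c') =
      (a * d - b * c) * (a' * d' - b' * c') by ring]
    exact mul_ne_zero h h'
  rw [m, m, m, dif_pos h, dif_pos h', dif_pos h2, ← map_mul]
  congr 1
  exact Units.ext (mul_fin_two _ _ _ _ _ _ _ _)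

theorem m_congr {a b c d a' b' c' d' : L} (h1 : a = a') (h2 : b = b') (h3 : c = c')
    (h4 : d = d') : E.m a b c d = E.m a' b' c' d' := by rw [h1, h2, h3, h4]

theorem m_one : E.m 1 0 0 1 = 1 := Equiv.ext fun x => Subtype.ext (by
  rw [E.m_val (by simp)]
  simp)

/-- The upper triangular matrices. -/
noncomputable def up (a b d : L) : Equiv.Perm (XS s) := E.m a b 0 d

theorem up_det {a b d : L} (ha : a ≠ 0) (hd : d ≠ 0) : a * d - b * 0 ≠ 0 := by
  rw [mul_zero, sub_zero]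
  exact mul_ne_zero ha hd

theorem up_mul {a b d a' b' d' : L} (ha : a ≠ 0) (hd : d ≠ 0) (ha' : a' ≠ 0) (hd' : d' ≠ 0) :
    E.up a b d * E.up a' b' d' = E.up (a * a') (a * b' + b * d') (d * d') := by
  rw [up, up, E.m_mul (up_det ha hd) (up_det ha' hd')]
  exact E.m_congr (by ring) rfl (by ring) (by ring)

theorem up_congr {a b d a' b' d' : L} (h1 : a = a') (h2 : b = b') (h4 : d = d') :
    E.up a b d = E.up a' b' d' := by rw [h1, h2, h4]

theorem up_inv {a b d : L} (ha : a ≠ 0) (hd : d ≠ 0) :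
    (E.up a b d)⁻¹ = E.up a⁻¹ (-(a⁻¹ * b * d⁻¹)) d⁻¹ := by
  rw [inv_eq_iff_mul_eq_one, E.up_mul ha hd (inv_ne_zero ha) (inv_ne_zero hd), ← E.m_one]
  exact E.up_congr (mul_inv_cancel₀ ha) (by field_simp; ring) (mul_inv_cancel₀ hd)

theorem up_val {a b d : L} (ha : a ≠ 0) (hd : d ≠ 0) (x : XS s) :
    (E.up a b d x).1 = (E.φ a * x.1 + E.φ b) * (E.φ d)⁻¹ := by
  rw [up, E.m_val (up_det ha hd), map_zero, zero_mul, zero_add]

/-- The group of the upper triangular matrices. -/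
def PE : Subgroup (Equiv.Perm (XS s)) where
  carrier := {π | ∃ a b d, a ≠ 0 ∧ d ≠ 0 ∧ π = E.up a b d}
  one_mem' := ⟨1, 0, 1, one_ne_zero, one_ne_zero, E.m_one.symm⟩
  mul_mem' := by
    rintro _ _ ⟨a, b, d, ha, hd, rfl⟩ ⟨a', b', d', ha', hd', rfl⟩
    exact ⟨_, _, _, mul_ne_zero ha ha', mul_ne_zero hd hd', E.up_mul ha hd ha' hd'⟩
  inv_mem' := by
    rintro _ ⟨a, b, d, ha, hd, rfl⟩
    exact ⟨_, _, _, inv_ne_zero ha, inv_ne_zero hd, E.up_inv ha hd⟩

theorem up_mem {a d : L} (b : L) (ha : a ≠ 0) (hd : d ≠ 0) : E.up a b d ∈ E.PE :=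
  ⟨a, b, d, ha, hd, rfl⟩

theorem PE_le : E.PE ≤ E.mu.range := by
  rintro _ ⟨a, b, d, -, -, rfl⟩
  exact E.m_mem _ _ _ _

/-- The translations. -/
noncomputable def T (l : L) : Equiv.Perm (XS s) := E.up 1 l 1

theorem T_add (a b : L) : E.T (a + b) = E.T a * E.T b := by
  rw [T, T, T, E.up_mul one_ne_zero one_ne_zero one_ne_zero one_ne_zero]
  exact E.up_congr (by ring) (by ring) (by ring)

theorem T_val (l : L) (x : XS s) : (E.T l x).1 = x.1 + E.φ l := by
  rw [T, E.up_val one_ne_zero one_ne_zero]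
  simp

theorem solvable : Group.IsSolvable E.PE := by
  let A : Subgroup E.PE :=
    { carrier := {π | ∃ l, π.1 = E.T l}
      one_mem' := ⟨0, E.m_one.symm⟩
      mul_mem' := by
        rintro a b ⟨l, h⟩ ⟨l', h'⟩
        exact ⟨l + l', by rw [T_add, ← h, ← h']; rfl⟩
      inv_mem' := by
        rintro a ⟨l, h⟩
        refine ⟨_, (congrArg (·⁻¹) h).trans ((E.up_inv one_ne_zero one_ne_zero).trans
          (E.up_congr inv_one rfl inv_one))⟩ }
  refine H722.isSolvable_of_comm A ?_ ?_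
  · rintro a ⟨l, h⟩ b ⟨l', h'⟩
    refine Subtype.ext ?_
    rw [Subgroup.coe_mul, Subgroup.coe_mul, h, h', ← T_add, ← T_add, add_comm]
  · rintro ⟨_, a, b, d, ha, hd, rfl⟩ ⟨_, a', b', d', ha', hd', rfl⟩
    have h1 := mul_ne_zero ha ha'
    have h2 := mul_ne_zero hd hd'
    have h3 := mul_ne_zero ha' ha
    have h4 := mul_ne_zero hd' hd
    change ∃ l, E.up a b d * E.up a' b' d' * (E.up a b d)⁻¹ * (E.up a' b' d')⁻¹ = E.T l
    rw [mul_assoc, ← _root_.mul_inv_rev, E.up_mul ha hd ha' hd', E.up_mul ha' hd' ha hd,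
      E.up_inv h3 h4, E.up_mul h1 h2 (inv_ne_zero h3) (inv_ne_zero h4)]
    exact ⟨_, E.up_congr (by field_simp) rfl (by field_simp)⟩

end Emb

end Vale.Agent.P011UL
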